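import Mathlib

/-!
# P217 Universal: first order calculus of substitutions
-/

noncomputable section

namespace Vale.Agent.P217.LT

open MvPowerSeries

variable {R : Type*} [CommRing R] {σ τ : Type*}

/-- All coefficients of degree `< M` vanish. -/
def Small (M : ℕ) (f : MvPowerSeries τ R) : Prop := ∀ e : τ →₀ ℕ, e.degree < M → coeff e f = 0

lemma small_eq_zero {f : MvPowerSeries τ R} (h : ∀ M, Small M f) : f = 0 :=
  MvPowerSeries.ext fun e => by rw [h (e.degree + 1) e (Nat.lt_succ_self _), map_zero]

lemma Small.mono {M M' : ℕ} {f : MvPowerSeries τ R} (h : Small M f) (hM : M' ≤ M) : Small M' f :=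
  fun e he => h e (lt_of_lt_of_le he hM)

lemma small_sub_self (M : ℕ) (f : MvPowerSeries τ R) : Small M (f - f) := fun e _ => by simp

lemma Small.add {M : ℕ} {f g : MvPowerSeries τ R} (h : Small M f) (h' : Small M g) :
    Small M (f + g) := fun e he => by rw [map_add, h e he, h' e he, add_zero]

lemma Small.sub {M : ℕ} {f g : MvPowerSeries τ R} (h : Small M f) (h' : Small M g) :
    Small M (f - g) := fun e he => by rw [map_sub, h e he, h' e he, sub_zero]

lemma Small.mul_left {M : ℕ} {g : MvPowerSeries τ R} (f : MvPowerSeries τ R) (h : Small M g) :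
    Small M (f * g) := fun e he => by
  classical
  rw [coeff_mul]
  refine Finset.sum_eq_zero fun x hx => ?_
  rw [h x.2 (lt_of_le_of_lt (Finsupp.degree_mono ?_) he), mul_zero]
  exact (Finset.HasAntidiagonal.mem_antidiagonal.1 hx) ▸ self_le_add_left _ _

lemma Small.map {S : Type*} [CommRing S] (f : R →+* S) {M : ℕ} {g : MvPowerSeries τ R}
    (h : Small M g) : Small M (MvPowerSeries.map f g) := fun e he => by
  rw [coeff_map, h e he, map_zero]

lemma hsub [Finite σ] {a : σ → MvPowerSeries τ R} (ha : ∀ i, (a i).constantCoeff = 0) :
    HasSubst a := hasSubst_of_constantCoeff_zero ha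

lemma coeff_subst_trunc [Finite σ] [Finite τ] {a : σ → MvPowerSeries τ R}
    (ha : ∀ i, (a i).constantCoeff = 0) (A : MvPowerSeries σ R) {e : τ →₀ ℕ} {M : ℕ}
    (he : e.degree < M) :
    coeff e (subst a A) = coeff e (subst a (A.truncTotal M).toMvPowerSeries) := by
  have h := congrArg (MvPolynomial.coeff e)
    (truncTotal_subst_eq_truncTotal_truncTotal_subst (f := A) (k := M) ha)
  rwa [coeff_truncTotal _ he, coeff_truncTotal _ he] at h

lemma small_subst [Finite σ] [Finite τ] {a : σ → MvPowerSeries τ R}
    (ha : ∀ i, (a i).constantCoeff = 0) {A : MvPowerSeries σ R} {M : ℕ} (h : Small M A) :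
    Small M (subst a A) := fun e he => by
  classical
  have h0 : A.truncTotal M = 0 := by
    ext d
    rw [coeff_truncTotal_eq_ite]
    split_ifs with hd
    · simp [h d hd]
    · simp
  rw [coeff_subst_trunc ha A he, h0, MvPolynomial.coe_zero, ← substAlgHom_apply (hsub ha),
    map_zero, map_zero]

lemma small_subst_sub [Finite σ] [Finite τ] {a b : σ → MvPowerSeries τ R}
    (ha : ∀ i, (a i).constantCoeff = 0) (hb : ∀ i, (b i).constantCoeff = 0)
    (A : MvPowerSeries σ R) {M : ℕ} (h : ∀ i, Small M (a i - b i)) :
    Small M (subst a A - subst b A) := by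
  have key : ∀ P : MvPolynomial σ R,
      Small M (subst a P.toMvPowerSeries - subst b P.toMvPowerSeries) := by
    intro P
    rw [subst_coe, subst_coe]
    induction P using MvPolynomial.induction_on with
    | C r => simp only [MvPolynomial.aeval_C]; exact small_sub_self M _
    | add P Q hP hQ =>
      rw [map_add, map_add, add_sub_add_comm]
      exact hP.add hQ
    | mul_X P i hP =>
      rw [map_mul, map_mul, MvPolynomial.aeval_X, MvPolynomial.aeval_X,
        show ∀ x y u v : MvPowerSeries τ R, x * u - y * v = u * (x - y) + y * (u - v) from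
          fun x y u v => by ring]
      exact (hP.mul_left _).add ((h i).mul_left _)
  intro e he
  rw [map_sub, coeff_subst_trunc ha A he, coeff_subst_trunc hb A he, ← map_sub]
  exact key _ e he

lemma small_psubst_sub [Finite τ] {g g' : MvPowerSeries τ R} (hg : g.constantCoeff = 0)
    (hg' : g'.constantCoeff = 0) (φ : PowerSeries R) {M : ℕ} (h : Small M (g - g')) :
    Small M (PowerSeries.subst g φ - PowerSeries.subst g' φ) :=
  small_subst_sub (σ := Unit) (fun _ => hg) (fun _ => hg') φ fun _ => h

lemma small_psubst [Finite τ] {g : MvPowerSeries τ R} (hg : g.constantCoeff = 0)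
    {φ : PowerSeries R} {M : ℕ} (h : Small M φ) : Small M (PowerSeries.subst g φ) :=
  small_subst (σ := Unit) (fun _ => hg) h

/-- The first order expansion of a substitution. -/
theorem subst_add_first [Fintype σ] [Finite τ] (A : MvPowerSeries σ R)
    {a d : σ → MvPowerSeries τ R} (ha : ∀ i, (a i).constantCoeff = 0)
    (hd : ∀ i, (d i).constantCoeff = 0) (hdd : ∀ i j, d i * d j = 0) :
    subst (fun i => a i + d i) A = subst a A + ∑ i, subst a (pderiv R i A) * d i := by
  classical
  have had : ∀ i, (a i + d i).constantCoeff = 0 := fun i => by simp [ha i, hd i]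
  have hds : ∀ {f : σ → MvPowerSeries τ R} (i : σ), (∑ j, f j * d j) * d i = 0 := fun i => by
    rw [Finset.sum_mul]
    exact Finset.sum_eq_zero fun j _ => by rw [mul_assoc, hdd, mul_zero]
  have key : ∀ P : MvPolynomial σ R, MvPolynomial.aeval (fun i => a i + d i) P =
      MvPolynomial.aeval a P + ∑ i, MvPolynomial.aeval a (MvPolynomial.pderiv i P) * d i := by
    intro P
    induction P using MvPolynomial.induction_on with
    | C r => simp
    | add P Q hP hQ =>
      simp only [map_add, hP, hQ, add_mul, Finset.sum_add_distrib]
      ring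
    | mul_X P j hP =>
      have hs : ∑ i, MvPolynomial.aeval a (MvPolynomial.pderiv i (P * MvPolynomial.X j)) * d i =
          (∑ i, MvPolynomial.aeval a (MvPolynomial.pderiv i P) * d i) * a j +
            MvPolynomial.aeval a P * d j := by
        simp only [MvPolynomial.pderiv_mul, MvPolynomial.pderiv_X, map_add, map_mul,
          MvPolynomial.aeval_X, add_mul, Finset.sum_add_distrib, Finset.sum_mul]
        congr 1
        · exact Finset.sum_congr rfl fun i _ => by ring
        · rw [Finset.sum_eq_single j]
          · simp
          · intro i _ hij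
            simp [Pi.single_eq_of_ne hij.symm]
          · simp
      rw [map_mul, map_mul, MvPolynomial.aeval_X, MvPolynomial.aeval_X, hP, hs]
      linear_combination hds (f := fun i => MvPolynomial.aeval a (MvPolynomial.pderiv i P)) j
  ext e
  have hp : ∀ i, coeff e (subst a (pderiv R i A) * d i) = coeff e
      (subst a (pderiv R i (A.truncTotal (e.degree + 2)).toMvPowerSeries) * d i) := by
    intro i
    have h : Small (e.degree + 1)
        (pderiv R i A - pderiv R i (A.truncTotal (e.degree + 2)).toMvPowerSeries) := by
      intro x hx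
      rw [map_sub, coeff_pderiv, coeff_pderiv, MvPolynomial.coeff_coe, coeff_truncTotal, sub_self]
      simp only [map_add, Finsupp.degree_single]
      omega
    have h' := ((small_subst ha h).mul_left (d i)) e (Nat.lt_succ_self _)
    rwa [← substAlgHom_apply (hsub ha), map_sub, substAlgHom_apply, substAlgHom_apply,
      mul_comm, sub_mul, map_sub, sub_eq_zero] at h'
  rw [map_add, map_sum, coeff_subst_trunc had A (M := e.degree + 2) (by omega),
    coeff_subst_trunc ha A (M := e.degree + 2) (by omega)]
  simp only [hp]
  rw [← map_sum, ← map_add]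
  congr 1
  simp only [pderiv_coe, subst_coe]
  exact key _

/-- The first order expansion in one variable. -/
theorem psubst_add_first [Finite τ] (φ : PowerSeries R) {g d : MvPowerSeries τ R}
    (hg : g.constantCoeff = 0) (hd : d.constantCoeff = 0) (hdd : d * d = 0) :
    PowerSeries.subst (g + d) φ =
      PowerSeries.subst g φ + PowerSeries.subst g (pderiv R () φ) * d := by
  have := subst_add_first (σ := Unit) (φ : MvPowerSeries Unit R) (a := fun _ => g)
    (d := fun _ => d) (fun _ => hg) (fun _ => hd) (fun _ _ => hdd)
  rw [Finset.univ_unique, Finset.sum_singleton] at this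
  exact this

end Vale.Agent.P217.LT
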