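import Vale.Agent.P217.FG.Existence
import Vale.Agent.P217.Complete
import Vale.Agent.P217.LT.Universal.Calculus

/-!
# P217 Universal: the Lubin-Tate ring, completeness, evaluation
-/

noncomputable section

namespace Vale.Agent.P217.LT

open MvPowerSeries IsLocalRing

variable {p n : ℕ} [Fact p.Prime]

lemma residueMap_apply (x : E0 p n) :
    residueMap p n x = WittVector.constantCoeff (constantCoeff x) := rfl

lemma algebraMap_W (w : W p n) : algebraMap (W p n) (E0 p n) w = C w := rfl

lemma residueMap_C (w : W p n) :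
    residueMap p n (algebraMap (W p n) (E0 p n) w) = WittVector.constantCoeff w := by
  rw [residueMap_apply, algebraMap_W, constantCoeff_C]

lemma residueMap_X (i : Fin (n - 1)) : residueMap p n (X i) = 0 := by
  rw [residueMap_apply, constantCoeff_X, map_zero]

lemma residueMap_surjective : Function.Surjective (residueMap p n) := fun c =>
  ⟨algebraMap (W p n) (E0 p n) (WittVector.teichmuller p c), by
    rw [residueMap_C]; exact WittVector.teichmuller_coeff_zero p c⟩

lemma mem_maximal_iff {x : E0 p n} : x ∈ maximalIdeal (E0 p n) ↔ residueMap p n x = 0 := by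
  rw [mem_maximalIdeal, mem_nonunits_iff, MvPowerSeries.isUnit_iff_constantCoeff, residueMap_apply]
  refine ⟨fun h => ?_, fun h hu => ?_⟩
  · by_contra hne
    exact h (WittVector.isUnit_of_coeff_zero_ne_zero _ hne)
  · exact (hu.map (WittVector.constantCoeff (p := p) (R := Coef p n))).ne_zero h

lemma p_mem_maximal : (p : E0 p n) ∈ maximalIdeal (E0 p n) :=
  mem_maximal_iff.2 (by rw [map_natCast]; exact CharP.cast_eq_zero _ p)

lemma X_mem_maximal (i : Fin (n - 1)) : (X i : E0 p n) ∈ maximalIdeal (E0 p n) :=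
  mem_maximal_iff.2 (residueMap_X i)

lemma small_mem_pow {N : ℕ} {f : E0 p n} (h : Small N f) : f ∈ maximalIdeal (E0 p n) ^ N :=
  Ideal.pow_right_mono (Ideal.span_le.2 (by rintro _ ⟨i, rfl⟩; exact X_mem_maximal i)) N
    (Adic.mem_span_X_pow N _ h)

section Target

variable {S : Type} [CommRing S] [IsLocalRing S] [Algebra (W p n) S]

lemma map_idealOfVars_le (a : Fin (n - 1) → S) (ha : ∀ i, a i ∈ maximalIdeal S) (N : ℕ) :
    ∀ x ∈ MvPolynomial.idealOfVars (Fin (n - 1)) (W p n) ^ N,
      MvPolynomial.aeval a x ∈ maximalIdeal S ^ N := by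
  intro x hx
  have h1 := Ideal.mem_map_of_mem (MvPolynomial.aeval (R := W p n) a).toRingHom hx
  rw [Ideal.map_pow] at h1
  refine Ideal.pow_right_mono ?_ N h1
  rw [MvPolynomial.idealOfVars, Ideal.map_span, Ideal.span_le]
  rintro _ ⟨_, ⟨i, rfl⟩, rfl⟩
  simpa using ha i

/-- Truncated evaluation. -/
def evalTrunc (a : Fin (n - 1) → S) (ha : ∀ i, a i ∈ maximalIdeal S) (N : ℕ) :
    E0 p n →+* S ⧸ maximalIdeal S ^ N :=
  (Ideal.Quotient.lift (MvPolynomial.idealOfVars (Fin (n - 1)) (W p n) ^ N)
    ((Ideal.Quotient.mk (maximalIdeal S ^ N)).comp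
      (MvPolynomial.aeval (R := W p n) a).toRingHom)
    fun x hx => Ideal.Quotient.eq_zero_iff_mem.2 (map_idealOfVars_le a ha N x hx)).comp
      (MvPowerSeries.truncTotalAlgHom (Fin (n - 1)) (W p n) N).toRingHom

lemma evalTrunc_apply (a : Fin (n - 1) → S) (ha : ∀ i, a i ∈ maximalIdeal S) (N : ℕ)
    (x : E0 p n) : evalTrunc a ha N x =
      Ideal.Quotient.mk (maximalIdeal S ^ N) (MvPolynomial.aeval a (x.truncTotal N)) := rfl

lemma evalTrunc_coe (a : Fin (n - 1) → S) (ha : ∀ i, a i ∈ maximalIdeal S) (N : ℕ)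
    (P : MvPolynomial (Fin (n - 1)) (W p n)) : evalTrunc a ha N P.toMvPowerSeries =
      Ideal.Quotient.mk (maximalIdeal S ^ N) (MvPolynomial.aeval a P) := by
  rw [evalTrunc_apply, Ideal.Quotient.mk_eq_mk_iff_sub_mem, ← map_sub]
  refine map_idealOfVars_le a ha N _
    ((MvPolynomial.mem_pow_idealOfVars_iff' ..).2 fun x hx => ?_)
  rw [MvPolynomial.coeff_sub, coeff_truncTotal _ hx, MvPolynomial.coeff_coe, sub_self]

lemma evalTrunc_compat (a : Fin (n - 1) → S) (ha : ∀ i, a i ∈ maximalIdeal S) {m k : ℕ}
    (hle : m ≤ k) : (Ideal.Quotient.factorPow (maximalIdeal S) hle).comp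
      (evalTrunc (p := p) a ha k) = evalTrunc a ha m := by
  ext x
  rw [RingHom.comp_apply, evalTrunc_apply, evalTrunc_apply]
  change Ideal.Quotient.mk (maximalIdeal S ^ m) _ = _
  rw [Ideal.Quotient.mk_eq_mk_iff_sub_mem, ← map_sub]
  exact map_idealOfVars_le a ha m _
    (truncTotal_sub_truncTotal_mem_pow_idealOfVars hle le_rfl x)

theorem exists_algHom [IsAdicComplete (maximalIdeal S) S] (a : Fin (n - 1) → S)
    (ha : ∀ i, a i ∈ maximalIdeal S) :
    ∃ σ : E0 p n →ₐ[W p n] S, ∀ i, σ (X i) = a i := by
  let σ₀ : E0 p n →+* S :=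
    IsAdicComplete.liftRingHom (maximalIdeal S) (evalTrunc a ha) (evalTrunc_compat a ha)
  have hval : ∀ (P : MvPolynomial (Fin (n - 1)) (W p n)),
      σ₀ P.toMvPowerSeries = MvPolynomial.aeval a P := by
    intro P
    refine (IsHausdorff.eq_iff_smodEq (I := maximalIdeal S)).2 fun N => ?_
    rw [SModEq.sub_mem, smul_eq_mul, Ideal.mul_top, ← Ideal.Quotient.mk_eq_mk_iff_sub_mem,
      IsAdicComplete.mk_liftRingHom, evalTrunc_coe]
  refine ⟨{ toRingHom := σ₀, commutes' := fun w => ?_ }, fun i => ?_⟩
  · have := hval (MvPolynomial.C w)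
    rw [MvPolynomial.coe_C, MvPolynomial.aeval_C] at this
    exact this
  · have := hval (MvPolynomial.X i)
    rw [MvPolynomial.coe_X, MvPolynomial.aeval_X] at this
    exact this

variable (hs : Function.Surjective ((residue S).comp (algebraMap (W p n) S)))

include hs in
lemma ker_residue : RingHom.ker ((residue S).comp (algebraMap (W p n) S)) =
    RingHom.ker (WittVector.constantCoeff (p := p) (R := Coef p n)) := by
  have h1 := RingHom.ker_isMaximal_of_surjective _ hs
  have h2 := RingHom.ker_isMaximal_of_surjective (WittVector.constantCoeff (p := p) (R := Coef p n))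
    fun c => ⟨WittVector.teichmuller p c, WittVector.teichmuller_coeff_zero p c⟩
  rw [IsLocalRing.eq_maximalIdeal h1, IsLocalRing.eq_maximalIdeal h2]

/-- The reduction of `S` to the field with `p ^ n` elements. -/
def qS : S →+* Coef p n :=
  (((residue S).comp (algebraMap (W p n) S)).liftOfSurjective hs
    ⟨WittVector.constantCoeff, (ker_residue hs).le⟩).comp (residue S)

lemma qS_algebraMap (w : W p n) : qS hs (algebraMap (W p n) S w) = WittVector.constantCoeff w :=
  RingHom.liftOfRightInverse_comp_apply _ (Function.surjInv hs) (Function.rightInverse_surjInv hs)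
    ⟨WittVector.constantCoeff, (ker_residue hs).le⟩ w

lemma qS_surjective : Function.Surjective (qS hs) := fun c =>
  ⟨algebraMap (W p n) S (WittVector.teichmuller p c), by
    rw [qS_algebraMap]; exact WittVector.teichmuller_coeff_zero p c⟩

lemma mem_maximal_S {x : S} : x ∈ maximalIdeal S ↔ qS hs x = 0 := by
  constructor
  · intro h
    rw [qS, RingHom.comp_apply, (residue_eq_zero_iff x).2 h, map_zero]
  · intro h
    by_contra hne
    exact ((notMem_maximalIdeal.1 hne).map (qS hs)).ne_zero h

include hs in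
lemma algHom_maximal (σ : E0 p n →ₐ[W p n] S) (i : Fin (n - 1)) : σ (X i) ∈ maximalIdeal S := by
  rw [mem_maximal_S hs]
  by_contra hne
  set c := qS hs (σ (X i)) with hc
  set w := WittVector.teichmuller p c with hw
  have hwc : WittVector.constantCoeff w = c := WittVector.teichmuller_coeff_zero p c
  have hu : IsUnit (X i - algebraMap (W p n) (E0 p n) w : E0 p n) := notMem_maximalIdeal.1 fun h => by
    rw [mem_maximal_iff, map_sub, residueMap_X, residueMap_C, hwc, zero_sub, neg_eq_zero] at h
    exact hne h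
  refine ((hu.map σ).map (qS hs)).ne_zero ?_
  rw [map_sub, map_sub, σ.commutes, qS_algebraMap, hwc, ← hc, sub_self]

lemma qS_algHom (σ : E0 p n →ₐ[W p n] S) (f : E0 p n) : qS hs (σ f) = residueMap p n f := by
  have h : Small 1 (f - C (constantCoeff f)) := fun e he => by
    rw [(Finsupp.degree_eq_zero_iff e).1 (by omega), coeff_zero_eq_constantCoeff_apply, map_sub,
      constantCoeff_C, sub_self]
  have h2 : qS hs (σ (f - C (constantCoeff f))) = 0 := by
    rw [← mem_maximal_S hs]
    have := Adic.mem_span_X_pow 1 _ h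
    rw [pow_one] at this
    refine (Ideal.span_le (I := (maximalIdeal S).comap σ.toRingHom)).2 ?_ this
    rintro _ ⟨j, rfl⟩
    exact algHom_maximal hs σ j
  rw [map_sub, map_sub, sub_eq_zero, ← algebraMap_W, σ.commutes, qS_algebraMap] at h2
  rw [h2, residueMap_apply]

include hs in
lemma algHom_small (σ : E0 p n →ₐ[W p n] S) {N : ℕ} {f : E0 p n} (h : Small N f) :
    σ f ∈ maximalIdeal S ^ N := by
  have h1 := Ideal.mem_map_of_mem σ.toRingHom (Adic.mem_span_X_pow N _ h)
  rw [Ideal.map_pow] at h1
  refine Ideal.pow_right_mono ?_ N h1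
  rw [Ideal.map_span, Ideal.span_le]
  rintro _ ⟨_, ⟨i, rfl⟩, rfl⟩
  exact algHom_maximal hs σ i

end Target

/-- Two maps agreeing on constants and differing to first order on the variables differ by the
derivative. -/
theorem hom_first {T : Type} [CommRing T] {s s' : E0 p n →+* T} {β : T} (hβ : β * β = 0)
    (hC : ∀ w, s' (algebraMap (W p n) (E0 p n) w) = s (algebraMap (W p n) (E0 p n) w))
    (x : Fin (n - 1) → T) (hX : ∀ i, s' (X i) = s (X i) + β * x i) {M : ℕ}
    (hkill : ∀ f, Small M f → s f = 0 ∧ s' f = 0) (f : E0 p n) :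
    s' f = s f + β * ∑ i, x i * s (pderiv (W p n) i f) := by
  classical
  have key : ∀ P : MvPolynomial (Fin (n - 1)) (W p n), s' P.toMvPowerSeries = s P.toMvPowerSeries +
      β * ∑ i, x i * s (pderiv (W p n) i P.toMvPowerSeries) := by
    intro P
    induction P using MvPolynomial.induction_on with
    | C r =>
      rw [MvPolynomial.coe_C]
      simp only [pderiv_C, map_zero, mul_zero, Finset.sum_const_zero, add_zero]
      exact hC r
    | add P Q hP hQ =>
      simp only [MvPolynomial.coe_add, map_add, hP, hQ, mul_add, Finset.sum_add_distrib]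
      ring
    | mul_X P j hP =>
      have hs : ∑ i, x i * s (pderiv (W p n) i (P.toMvPowerSeries * X j)) =
          (∑ i, x i * s (pderiv (W p n) i P.toMvPowerSeries)) * s (X j) +
            x j * s P.toMvPowerSeries := by
        simp only [Derivation.leibniz, smul_eq_mul, map_add, map_mul, mul_add,
          Finset.sum_add_distrib, Finset.sum_mul]
        rw [add_comm]
        congr 1
        · exact Finset.sum_congr rfl fun i _ => by ring
        · rw [Finset.sum_eq_single j]
          · simp
          · intro i _ hij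
            simp [pderiv_X, Pi.single_eq_of_ne hij.symm]
          · simp
      rw [MvPolynomial.coe_mul, MvPolynomial.coe_X, map_mul, map_mul, hP, hX, hs]
      linear_combination (∑ i, x i * s (pderiv (W p n) i P.toMvPowerSeries)) * x j * hβ
  have ht : Small (M + 1) (f - (f.truncTotal (M + 1)).toMvPowerSeries) := fun e he => by
    rw [map_sub, MvPolynomial.coeff_coe, coeff_truncTotal _ he, sub_self]
  have hd : ∀ i, Small M (pderiv (W p n) i (f - (f.truncTotal (M + 1)).toMvPowerSeries)) :=
    fun i e he => by rw [coeff_pderiv, ht _ (by simp; omega), zero_mul]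
  have e0 := hkill _ (ht.mono (Nat.le_succ M))
  rw [map_sub, map_sub, sub_eq_zero, sub_eq_zero] at e0
  have e1 : ∀ i, s (pderiv (W p n) i f) =
      s (pderiv (W p n) i (f.truncTotal (M + 1)).toMvPowerSeries) := fun i => by
    have := (hkill _ (hd i)).1
    rwa [map_sub, map_sub, sub_eq_zero] at this
  rw [e0.1, e0.2, key]
  simp only [e1]

end Vale.Agent.P217.LT
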