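import Vale.Agent.P217.LT.Universal.Step
import Vale.Agent.P217.LT.Universal.Ring

/-!
# P217 Universal: successive approximation along the powers of the maximal ideal
-/

noncomputable section

namespace Vale.Agent.P217.LT

open MvPowerSeries IsLocalRing

variable {p n : ℕ} [Fact p.Prime] {F : FormalGroup (E0 p n)}

/-- The series of partial derivatives of the coefficients. -/
def dSeries (F : FormalGroup (E0 p n)) (i : Fin (n - 1)) : MvPowerSeries (Fin 2) (E0 p n) :=
  fun d => pderiv (W p n) i (coeff d F.toPowerSeries)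

lemma coeff_dSeries (i : Fin (n - 1)) (d : Fin 2 →₀ ℕ) :
    coeff d (dSeries F i) = pderiv (W p n) i (coeff d F.toPowerSeries) := rfl

lemma coeff_dF (i : Fin (n - 1)) (d : Fin 2 →₀ ℕ) :
    coeff d (dF p n F i) = residueMap p n (pderiv (W p n) i (coeff d F.toPowerSeries)) := rfl

lemma specialFibre_map_id : (specialFibre p n F).map (RingHom.id (Coef p n)) = specialFibre p n F :=
  FormalGroup.ext (by ext e; simp)

theorem change {T : Type} [CommRing T] {β : T} {q : T →+* Coef p n} (K : Kill β q)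
    {s s' : E0 p n →+* T} (hq : q.comp s = residueMap p n)
    (hC : ∀ w, s' (algebraMap (W p n) (E0 p n) w) = s (algebraMap (W p n) (E0 p n) w))
    (x : Fin (n - 1) → T) (hX : ∀ i, s' (X i) = s (X i) + β * x i) {M : ℕ}
    (hkill : ∀ f, Small M f → s f = 0 ∧ s' f = 0) {G : FormalGroup T}
    (hG : G.map q = specialFibre p n F) {φ Ψ : PowerSeries T} (hφ : φ.constantCoeff = 0)
    (hφq : PowerSeries.map q φ = PowerSeries.X) (hΨ : Ψ.constantCoeff = 0) :
    ∃ Z, dfc (F.map s') G (φ + PowerSeries.C β * Ψ) = dfc (F.map s) G φ + C β * Z ∧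
      map q Z = (∑ i, q (x i) • dF p n F i) +
        coboundary (specialFibre p n F) (PowerSeries.map q Ψ) := by
  have hPΓ : (F.map s).map q = specialFibre p n F := FormalGroup.ext (by
    ext e
    simp only [specialFibre, FormalGroup.map_toPowerSeries, coeff_map, ← hq, RingHom.comp_apply])
  refine ⟨lin (F.map s) G φ Ψ (∑ i, C (x i) * map s (dSeries F i)), dfc_change K.sq hφ hΨ ?_ ?_, ?_⟩
  · simp only [map_sum, map_mul, constantCoeff_map]
    refine Finset.sum_eq_zero fun i _ => ?_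
    rw [← coeff_zero_eq_constantCoeff_apply (dSeries F i), coeff_dSeries,
      coeff_zero_eq_constantCoeff_apply, F.zero_constantCoeff, map_zero, map_zero, mul_zero]
  · ext e
    simp only [FormalGroup.map_toPowerSeries, map_add, coeff_map, coeff_C_mul, map_sum,
      coeff_dSeries]
    exact hom_first K.sq hC x hX hkill _
  · rw [map_lin hPΓ hG hφ hφq]
    congr 1
    ext e
    simp only [map_sum, map_mul, MvPowerSeries.map_C, coeff_map, coeff_C_mul, coeff_smul,
      coeff_dSeries, coeff_dF, ← hq, RingHom.comp_apply]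

lemma small_powerSeries {R : Type*} [CommRing R] {M : ℕ} {φ : PowerSeries R} :
    Small M φ ↔ ∀ i < M, PowerSeries.coeff i φ = 0 := by
  constructor
  · intro h i hi
    exact h (Finsupp.single () i) (by simpa using hi)
  · intro h e he
    have he' : e = Finsupp.single () (e ()) := Finsupp.ext fun _ => by simp
    rw [he'] at he ⊢
    exact h _ (by simpa using he)

lemma small_dfc_congr {T : Type} [CommRing T] (P G : FormalGroup T) {φ φ' : PowerSeries T}
    (hφ : φ.constantCoeff = 0) (hφ' : φ'.constantCoeff = 0) {M : ℕ} (h : Small M (φ - φ')) :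
    Small M (dfc P G φ - dfc P G φ') := by
  have h0 : ∀ i : Fin 2, (MvPowerSeries.X i : MvPowerSeries (Fin 2) T).constantCoeff = 0 := by simp
  have key : ∀ {g : MvPowerSeries (Fin 2) T}, g.constantCoeff = 0 →
      Small M (PowerSeries.subst g φ - PowerSeries.subst g φ') := fun {g} hg => by
    rw [← PowerSeries.subst_sub (PowerSeries.HasSubst.of_constantCoeff_zero hg)]
    exact small_psubst hg h
  rw [dfc, dfc, sub_sub_sub_comm]
  refine (key P.zero_constantCoeff).sub
    (small_subst_sub (const_pr hφ (h0 0) (h0 1)) (const_pr hφ' (h0 0) (h0 1)) _ fun i => ?_)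
  fin_cases i <;> exact key (h0 _)

lemma small_coboundary_congr {R : Type} [CommRing R] (Γ : FormalGroup R) {ψ ψ' : PowerSeries R}
    {M : ℕ} (h : Small M (ψ - ψ')) : Small M (coboundary Γ ψ - coboundary Γ ψ') := by
  have key : ∀ {g : MvPowerSeries (Fin 2) R}, g.constantCoeff = 0 →
      Small M (PowerSeries.subst g ψ - PowerSeries.subst g ψ') := fun {g} hg => by
    rw [← PowerSeries.subst_sub (PowerSeries.HasSubst.of_constantCoeff_zero hg)]
    exact small_psubst hg h
  have e : coboundary Γ ψ - coboundary Γ ψ' =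
      (PowerSeries.subst Γ.toPowerSeries ψ - PowerSeries.subst Γ.toPowerSeries ψ') -
      MvPowerSeries.pderiv R 0 Γ.toPowerSeries *
        (PowerSeries.subst (MvPowerSeries.X 0) ψ - PowerSeries.subst (MvPowerSeries.X 0) ψ') -
      MvPowerSeries.pderiv R 1 Γ.toPowerSeries *
        (PowerSeries.subst (MvPowerSeries.X 1) ψ - PowerSeries.subst (MvPowerSeries.X 1) ψ') := by
    simp only [coboundary]; ring
  rw [e]
  exact ((key Γ.zero_constantCoeff).sub ((key (by simp)).mul_left _)).sub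
    ((key (by simp)).mul_left _)

/-- A cocycle combination vanishing in high degree has small coefficients. -/
theorem cocycle_bound (hF : IsHazewinkel p n F) [F.IsComm] (hn : 1 ≤ n) (D : ℕ) :
    ∃ M : ℕ, D ≤ M ∧ ∀ (c : Fin (n - 1) → Coef p n) (ψ : PowerSeries (Coef p n)),
      ψ.constantCoeff = 0 →
      Small M ((∑ i, c i • dF p n F i) + coboundary (specialFibre p n F) ψ) →
      (∀ i, c i = 0) ∧ ∀ i < D, PowerSeries.coeff i ψ = 0 := by
  classical
  by_contra hcon
  push Not at hcon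
  choose cs ψs h0 hsmall hbad using fun k => hcon (D + k) (by omega)
  set U : Ultrafilter ℕ := Filter.hyperfilter ℕ
  have pick : ∀ {α : Type} [Finite α] (f : ℕ → α), ∃ a, ∀ᶠ k in (U : Filter ℕ), f k = a := by
    intro α _ f
    obtain ⟨a, ha⟩ := Ultrafilter.eq_pure_of_finite (U.map f)
    exact ⟨a, show ({a} : Set α) ∈ U.map f by rw [ha]; rfl⟩
  obtain ⟨c, hc⟩ := pick cs
  choose b hb using fun i => pick fun k => PowerSeries.coeff i (ψs k)
  set ψ := PowerSeries.mk b
  have hpre : ∀ M, ∀ᶠ k in (U : Filter ℕ), Small M (ψs k - ψ) := fun M => by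
    filter_upwards [(Filter.eventually_all_finset (Finset.range M)).2 fun i _ => hb i] with k hk
    refine small_powerSeries.2 fun i hi => ?_
    rw [map_sub, PowerSeries.coeff_mk, hk i (Finset.mem_range.2 hi), sub_self]
  have hψ0 : ψ.constantCoeff = 0 := by
    obtain ⟨k, hk⟩ := (hpre 1).exists
    have := small_powerSeries.1 hk 0 one_pos
    rwa [map_sub, PowerSeries.coeff_zero_eq_constantCoeff_apply,
      PowerSeries.coeff_zero_eq_constantCoeff_apply, h0, zero_sub, neg_eq_zero] at this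
  have hzero : (∑ i, c i • MvPowerSeries.map (RingHom.id (Coef p n)) (dF p n F i)) +
      coboundary ((specialFibre p n F).map (RingHom.id (Coef p n))) ψ = 0 := by
    rw [specialFibre_map_id]
    simp only [MvPowerSeries.map_id, RingHom.id_apply]
    refine small_eq_zero fun M e he => ?_
    have hge : ∀ᶠ k in (U : Filter ℕ), M ≤ k :=
      Filter.hyperfilter_le_cofinite (Nat.cofinite_eq_atTop ▸ Filter.eventually_ge_atTop M)
    obtain ⟨k, hk1, hk2, hk3⟩ := (hge.and (hc.and (hpre M))).exists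
    have h1 := (hsmall k).mono (show M ≤ D + k by omega) e he
    have h2 := small_coboundary_congr (specialFibre p n F) hk3 e he
    rw [hk2, map_add] at h1
    rw [map_sub, sub_eq_zero] at h2
    rw [map_add, ← h2]
    exact h1
  obtain ⟨hc0, hψ⟩ := cocycle_independent hF hn (RingHom.id (Coef p n)) c ψ hψ0 hzero
  obtain ⟨k, hk2, hk3⟩ := (hc.and (hpre D)).exists
  obtain ⟨i, hi, hne⟩ := hbad k fun i => by rw [hk2]; exact hc0 i
  have := small_powerSeries.1 hk3 i hi
  rw [hψ, sub_zero] at this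
  exact hne this

variable {S : Type} [CommRing S] [IsLocalRing S] [Algebra (W p n) S]
  (hs : Function.Surjective ((residue S).comp (algebraMap (W p n) S)))

/-- The map to a quotient composed with an algebra map from `E0`. -/
abbrev red (J : Ideal S) (σ : E0 p n →ₐ[W p n] S) : E0 p n →+* S ⧸ J :=
  (Ideal.Quotient.mk J).comp σ.toRingHom

include hs in
lemma red_eq {N : ℕ} {J : Ideal S} (hN : maximalIdeal S ^ N ≤ J) {σ σ' : E0 p n →ₐ[W p n] S}
    (h : ∀ i, σ' (X i) - σ (X i) ∈ J) : red J σ' = red J σ := by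
  ext f
  have := hom_first (β := (0 : S ⧸ J)) (mul_zero 0) (s := red J σ) (s' := red J σ')
    (fun w => by simp) (fun _ => 0) (fun i => by
      simpa [Ideal.Quotient.mk_eq_mk_iff_sub_mem] using h i) (M := N)
    (fun f hf => ⟨Ideal.Quotient.eq_zero_iff_mem.2 (hN (algHom_small hs σ hf)),
      Ideal.Quotient.eq_zero_iff_mem.2 (hN (algHom_small hs σ' hf))⟩) f
  simpa using this

include hs in
lemma algHom_ext_X [IsHausdorff (maximalIdeal S) S] {σ σ' : E0 p n →ₐ[W p n] S}
    (h : ∀ i, σ' (X i) = σ (X i)) : σ' = σ := by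
  ext f
  refine (IsHausdorff.eq_iff_smodEq (I := maximalIdeal S)).2 fun N => ?_
  rw [SModEq.sub_mem, smul_eq_mul, Ideal.mul_top, ← Ideal.Quotient.mk_eq_mk_iff_sub_mem]
  exact RingHom.congr_fun
    (red_eq hs (J := maximalIdeal S ^ N) le_rfl (fun i => by rw [h i, sub_self]; exact zero_mem _)) f

lemma refine_ideals [IsNoetherianRing S] (N : ℕ) (P : Ideal S → Prop)
    (h : P (maximalIdeal S ^ (N + 1)))
    (step : ∀ J b, maximalIdeal S ^ (N + 2) ≤ J → J ≤ maximalIdeal S ^ (N + 1) →
      b ∈ maximalIdeal S ^ (N + 1) → P (J ⊔ Ideal.span {b}) → P J) :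
    P (maximalIdeal S ^ (N + 2)) := by
  classical
  obtain ⟨g, hg⟩ := IsNoetherian.noetherian (maximalIdeal S ^ (N + 1))
  have key : ∀ t : Finset S, t ⊆ g →
      P (maximalIdeal S ^ (N + 2) ⊔ Ideal.span (t : Set S)) → P (maximalIdeal S ^ (N + 2)) := by
    intro t
    induction t using Finset.induction_on with
    | empty => intro _ h; simpa using h
    | insert b t _ ih =>
      intro hsub hP
      have hsub' := fun x (hx : x ∈ (insert b t : Finset S)) =>
        (hg ▸ Submodule.subset_span (hsub hx) : x ∈ maximalIdeal S ^ (N + 1))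
      refine ih ((Finset.subset_insert b t).trans hsub) (step _ b le_sup_left ?_
        (hsub' b (Finset.mem_insert_self b t)) ?_)
      · exact sup_le (Ideal.pow_le_pow_right (by omega))
          (Ideal.span_le.2 fun x hx => hsub' x (Finset.mem_insert_of_mem hx))
      · rw [sup_assoc, ← Ideal.span_union, Set.union_singleton, ← Finset.coe_insert]
        exact hP
  refine key g Finset.Subset.rfl ?_
  rw [Ideal.span, hg, sup_eq_right.2 (Ideal.pow_le_pow_right (by omega))]
  exact h

/-- The data of a step along `J ≤ J ⊔ (b)`. -/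
theorem exists_kill {J : Ideal S} (hJ : J ≤ maximalIdeal S) {b : S}
    (hb : b ∈ maximalIdeal S) (hmb : ∀ x ∈ maximalIdeal S, x * b ∈ J) (hbJ : b ∉ J) :
    ∃ q : S ⧸ J →+* Coef p n, Kill (Ideal.Quotient.mk J b) q ∧
      ∀ x, q (Ideal.Quotient.mk J x) = qS hs x := by
  refine ⟨Ideal.Quotient.lift J (qS hs) fun x hx => (mem_maximal_S hs).1 (hJ hx), ⟨?_, ?_, ?_⟩,
    fun x => rfl⟩
  · intro y
    obtain ⟨y, rfl⟩ := Ideal.Quotient.mk_surjective y
    rw [← map_mul, Ideal.Quotient.eq_zero_iff_mem, Ideal.Quotient.lift_mk, ← mem_maximal_S hs]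
    refine ⟨fun h => ?_, fun h => by rw [mul_comm]; exact hmb y h⟩
    by_contra hy
    exact hbJ ((Ideal.unit_mul_mem_iff_mem J (notMem_maximalIdeal.1 hy)).1 (by rwa [mul_comm] at h))
  · exact (mem_maximal_S hs).1 hb
  · intro c
    obtain ⟨y, hy⟩ := qS_surjective hs c
    exact ⟨Ideal.Quotient.mk J y, hy⟩

variable (F) (G : FormalGroup S)

/-- The defect modulo an ideal. -/
def err (J : Ideal S) (σ : E0 p n →ₐ[W p n] S) (φ : PowerSeries S) :
    MvPowerSeries (Fin 2) (S ⧸ J) :=
  dfc (F.map (red J σ)) (G.map (Ideal.Quotient.mk J)) (PowerSeries.map (Ideal.Quotient.mk J) φ)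

lemma err_eq (J : Ideal S) (σ : E0 p n →ₐ[W p n] S) {φ : PowerSeries S}
    (hφ : φ.constantCoeff = 0) :
    err F G J σ φ = map (Ideal.Quotient.mk J) (dfc (F.map σ.toRingHom) G φ) := by
  rw [map_dfc _ _ _ hφ, err]
  congr 1

variable {F} {G}

include hs in
theorem exists_step (hF : IsHazewinkel p n F) [F.IsComm] (hn : 1 ≤ n)
    [IsAdicComplete (maximalIdeal S) S] [G.IsComm] (hG : G.map (qS hs) = specialFibre p n F)
    {N : ℕ} {J : Ideal S} (hJN : maximalIdeal S ^ (N + 2) ≤ J)
    (hJ : J ≤ maximalIdeal S ^ (N + 1)) {b : S} (hb : b ∈ maximalIdeal S ^ (N + 1))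
    {σ : E0 p n →ₐ[W p n] S} {φ : PowerSeries S} (hφ : φ.constantCoeff = 0)
    (hφq : PowerSeries.map (qS hs) φ = PowerSeries.X)
    (herr : err F G (J ⊔ Ideal.span {b}) σ φ = 0) :
    ∃ (σ' : E0 p n →ₐ[W p n] S) (φ' : PowerSeries S), φ'.constantCoeff = 0 ∧
      PowerSeries.map (qS hs) φ' = PowerSeries.X ∧ err F G J σ' φ' = 0 ∧
      (∀ i, σ' (X i) - σ (X i) ∈ maximalIdeal S ^ (N + 1)) ∧
      ∀ i, PowerSeries.coeff i (φ' - φ) ∈ maximalIdeal S ^ (N + 1) := by
  classical
  by_cases hbJ : b ∈ J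
  · refine ⟨σ, φ, hφ, hφq, ?_, fun i => by simp, fun i => by simp⟩
    rwa [sup_eq_left.2 ((Ideal.span_singleton_le_iff_mem J).2 hbJ)] at herr
  have hle : maximalIdeal S ^ (N + 1) ≤ maximalIdeal S := Ideal.pow_le_self (by omega)
  obtain ⟨q, K, hq⟩ := exists_kill hs (hJ.trans hle) (hle hb)
    (fun x hx => hJN (by rw [pow_succ']; exact Ideal.mul_mem_mul hx hb)) hbJ
  set β := Ideal.Quotient.mk J b
  have hqs : ∀ τ : E0 p n →ₐ[W p n] S, q.comp (red J τ) = residueMap p n := fun τ => by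
    ext f; simp [hq, qS_algHom hs]
  have hGq : (G.map (Ideal.Quotient.mk J)).map q = specialFibre p n F := by
    rw [← hG]; exact FormalGroup.ext (by ext e; simp [hq])
  have hPq : (F.map (red J σ)).map q = specialFibre p n F := FormalGroup.ext (by
    ext e
    simp only [specialFibre, FormalGroup.map_toPowerSeries, coeff_map, ← hqs σ, RingHom.comp_apply])
  set φT := PowerSeries.map (Ideal.Quotient.mk J) φ with hφTdef
  have hφT : φT.constantCoeff = 0 := by
    rw [hφTdef, ← PowerSeries.coeff_zero_eq_constantCoeff_apply, PowerSeries.coeff_map,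
      PowerSeries.coeff_zero_eq_constantCoeff_apply, hφ, map_zero]
  have hφTq : PowerSeries.map q φT = PowerSeries.X := by
    rw [← hφq]; ext i; simp [φT, hq]
  -- the defect is a multiple of `β`
  have hE : ∀ e, ∃ y, coeff e (err F G J σ φ) = β * y := fun e => by
    rw [err_eq F G _ _ hφ] at herr ⊢
    have h := congrArg (coeff e) herr
    rw [coeff_map, map_zero, Ideal.Quotient.eq_zero_iff_mem, Submodule.mem_sup] at h
    obtain ⟨j, hj, z, hz, hjz⟩ := h
    obtain ⟨c, rfl⟩ := Ideal.mem_span_singleton'.1 hz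
    refine ⟨Ideal.Quotient.mk J c, ?_⟩
    rw [coeff_map, ← hjz, map_add, Ideal.Quotient.eq_zero_iff_mem.2 hj, zero_add, map_mul,
      mul_comm]
  choose y hy using hE
  let E : MvPowerSeries (Fin 2) (S ⧸ J) := fun e => if e = 0 then 0 else y e
  have hEe : ∀ e, coeff e E = if e = 0 then 0 else y e := fun e => rfl
  have hE0 : E.constantCoeff = 0 := by
    rw [← coeff_zero_eq_constantCoeff_apply, hEe, if_pos rfl]
  have hD : err F G J σ φ = C β * E := by
    ext e
    rw [coeff_C_mul, hEe]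
    by_cases he : e = 0
    · subst he
      rw [if_pos rfl, mul_zero, err, coeff_zero_eq_constantCoeff_apply, dfc, map_sub,
        PowerSeries.constantCoeff_subst_eq_zero (F.map (red J σ)).zero_constantCoeff _ hφT,
        constantCoeff_subst_eq_zero (hsub (const_pr hφT (by simp) (by simp)))
          (const_pr hφT (by simp) (by simp)) (G.map _).zero_constantCoeff, sub_zero]
    · rw [if_neg he, hy]
  have hcoc : IsSymmCocycle ((specialFibre p n F).map (RingHom.id (Coef p n))) (map q E) := by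
    rw [specialFibre_map_id]
    exact isSymmCocycle_of_dfc K hPq hGq hφT hφTq hE0 hD
  obtain ⟨c, ψ, hψ, hdec⟩ := cocycle_decomp hF hn (RingHom.id (Coef p n)) hcoc
  rw [specialFibre_map_id] at hdec
  simp only [MvPowerSeries.map_id, RingHom.id_apply] at hdec
  choose x hx using fun i => qS_surjective hs (-c i)
  choose z hz using fun i => qS_surjective hs (-PowerSeries.coeff i ψ)
  set Ψ : PowerSeries S := PowerSeries.mk fun i => if i = 0 then 0 else z i
  have hΨ : Ψ.constantCoeff = 0 := by simp [Ψ]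
  obtain ⟨σ', hσ'⟩ := exists_algHom (p := p) (fun i => σ (X i) + b * x i)
    (fun i => Ideal.add_mem _ (algHom_maximal hs σ i) (Ideal.mul_mem_right _ _ (hle hb)))
  have hψq : PowerSeries.map q (PowerSeries.map (Ideal.Quotient.mk J) Ψ) = -ψ := by
    ext i
    simp only [PowerSeries.coeff_map, hq, Ψ, PowerSeries.coeff_mk, map_neg]
    split_ifs with hi
    · subst hi
      simp [PowerSeries.coeff_zero_eq_constantCoeff_apply, hψ]
    · exact hz i
  obtain ⟨Z, hZ, hZq⟩ := change K (F := F) (s := red J σ) (s' := red J σ') (hqs σ)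
    (fun w => by simp) (fun i => Ideal.Quotient.mk J (x i)) (fun i => by simp [hσ', β])
    (M := N + 2) (fun f hf => ⟨Ideal.Quotient.eq_zero_iff_mem.2 (hJN (algHom_small hs σ hf)),
      Ideal.Quotient.eq_zero_iff_mem.2 (hJN (algHom_small hs σ' hf))⟩)
    hGq hφT hφTq (Ψ := PowerSeries.map (Ideal.Quotient.mk J) Ψ)
    (by rw [← PowerSeries.coeff_zero_eq_constantCoeff_apply, PowerSeries.coeff_map,
      PowerSeries.coeff_zero_eq_constantCoeff_apply, hΨ, map_zero])
  refine ⟨σ', φ + PowerSeries.C b * Ψ, by simp [hφ, hΨ], ?_, ?_, fun i => ?_, fun i => ?_⟩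
  · rw [map_add, map_mul, PowerSeries.map_C, (mem_maximal_S hs).1 (hle hb), map_zero, zero_mul,
      add_zero, hφq]
  · rw [err, map_add, map_mul, PowerSeries.map_C, hZ]
    change err F G J σ φ + _ = _
    rw [hD, ← mul_add, ← mul_zero (C β), K.eq_iff, map_add, map_zero, hZq, hψq, hdec]
    have hneg : coboundary (specialFibre p n F) (-ψ) = -coboundary (specialFibre p n F) ψ := by
      have hn' : ∀ {g : MvPowerSeries (Fin 2) (Coef p n)}, g.constantCoeff = 0 →
          PowerSeries.subst g (-ψ) = -PowerSeries.subst g ψ := fun {g} hg => by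
        rw [← PowerSeries.coe_substAlgHom (PowerSeries.HasSubst.of_constantCoeff_zero hg), map_neg]
      simp only [coboundary, hn' (specialFibre p n F).zero_constantCoeff, hn' (constantCoeff_X _)]
      ring
    simp only [hq, hx, neg_smul, Finset.sum_neg_distrib, hneg]
    ring
  · rw [hσ', add_sub_cancel_left]
    exact Ideal.mul_mem_right _ _ hb
  · rw [add_sub_cancel_left, PowerSeries.coeff_C_mul]
    exact Ideal.mul_mem_right _ _ hb

variable (F) (G)

/-- An exact solution of the deformation problem. -/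
def IsSol (σ : E0 p n →ₐ[W p n] S) (φ : PowerSeries S) : Prop :=
  IsHom (F.map σ.toRingHom) G φ

variable {F} {G}

include hs in
theorem exists_sol (hF : IsHazewinkel p n F) [F.IsComm] (hn : 1 ≤ n) [IsNoetherianRing S]
    [IsAdicComplete (maximalIdeal S) S] [G.IsComm] (hG : G.map (qS hs) = specialFibre p n F) :
    ∃ σ φ, IsSol F G σ φ ∧ PowerSeries.map (qS hs) φ = PowerSeries.X := by
  classical
  set m := maximalIdeal S
  let Good := fun (N : ℕ) (z : (E0 p n →ₐ[W p n] S) × PowerSeries S) =>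
    z.2.constantCoeff = 0 ∧ PowerSeries.map (qS hs) z.2 = PowerSeries.X ∧
      err F G (m ^ (N + 1)) z.1 z.2 = 0
  let Near := fun (N : ℕ) (z w : (E0 p n →ₐ[W p n] S) × PowerSeries S) =>
    (∀ i, w.1 (X i) - z.1 (X i) ∈ m ^ (N + 1)) ∧
      ∀ i, PowerSeries.coeff i (w.2 - z.2) ∈ m ^ (N + 1)
  obtain ⟨σ₀, hσ₀⟩ := exists_algHom (p := p) (n := n) (fun _ => (0 : S)) (fun _ => zero_mem _)
  have h0 : Good 0 (σ₀, PowerSeries.X) := by
    refine ⟨PowerSeries.constantCoeff_X, PowerSeries.map_X _, ?_⟩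
    rw [err_eq F G _ _ PowerSeries.constantCoeff_X]
    ext e
    rw [coeff_map, map_zero, Ideal.Quotient.eq_zero_iff_mem, pow_one, mem_maximal_S hs,
      ← coeff_map, map_dfc _ _ _ PowerSeries.constantCoeff_X, hG, PowerSeries.map_X]
    have : (F.map σ₀.toRingHom).map (qS hs) = specialFibre p n F :=
      FormalGroup.ext (by ext e; simp [specialFibre, qS_algHom hs])
    rw [this, dfc, pr, PowerSeries.subst_X
        (PowerSeries.HasSubst.of_constantCoeff_zero (specialFibre p n F).zero_constantCoeff),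
      PowerSeries.subst_X (PowerSeries.HasSubst.of_constantCoeff_zero (by simp)),
      PowerSeries.subst_X (PowerSeries.HasSubst.of_constantCoeff_zero (by simp)),
      show (![MvPowerSeries.X 0, MvPowerSeries.X 1] : Fin 2 → MvPowerSeries (Fin 2) (Coef p n)) =
        MvPowerSeries.X by funext i; fin_cases i <;> rfl, subst_self, id, sub_self, map_zero]
  have hstep : ∀ N z, Good N z → ∃ w, Good (N + 1) w ∧ Near N z w := by
    intro N z hz
    have := refine_ideals N (fun J => ∃ w : (E0 p n →ₐ[W p n] S) × PowerSeries S,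
      w.2.constantCoeff = 0 ∧ PowerSeries.map (qS hs) w.2 = PowerSeries.X ∧
        err F G J w.1 w.2 = 0 ∧ Near N z w)
      ⟨z, hz.1, hz.2.1, hz.2.2, fun i => by simp, fun i => by simp⟩
      fun J b hJN hJ hb hP => by
        obtain ⟨w, hw1, hw2, hw3, hw4, hw5⟩ := hP
        obtain ⟨σ', φ', h1, h2, h3, h4, h5⟩ :=
          exists_step hs hF hn hG hJN hJ hb hw1 hw2 hw3
        refine ⟨(σ', φ'), h1, h2, h3, fun i => ?_, fun i => ?_⟩
        · simpa using Ideal.add_mem _ (h4 i) (hw4 i)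
        · simpa [map_sub] using Ideal.add_mem _ (h5 i) (hw5 i)
    obtain ⟨w, h1, h2, h3, h4⟩ := this
    exact ⟨w, ⟨h1, h2, h3⟩, h4⟩
  choose next hnext using hstep
  let seq : ∀ N, { z // Good N z } := fun N => Nat.rec (motive := fun N => { z // Good N z })
    ⟨_, h0⟩ (fun N z => ⟨next N z.1 z.2, (hnext N z.1 z.2).1⟩) N
  have hnear : ∀ N, Near N (seq N).1 (seq (N + 1)).1 := fun N => (hnext N (seq N).1 (seq N).2).2
  have hcau : ∀ (v : ℕ → S), (∀ N, v (N + 1) - v N ∈ m ^ (N + 1)) →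
      ∃ L, ∀ N, L - v N ∈ m ^ (N + 1) := by
    intro v hv
    have hm : ∀ a d, v (a + d) - v a ∈ m ^ (a + 1) := by
      intro a d
      induction d with
      | zero => simp
      | succ d ih =>
        have := Ideal.pow_le_pow_right (show a + 1 ≤ a + d + 1 by omega) (hv (a + d))
        simpa [← add_assoc] using Ideal.add_mem _ this ih
    obtain ⟨L, hL⟩ := IsPrecomplete.prec (I := m) (M := S) inferInstance (f := v)
      (fun {a c} hac => by
        rw [SModEq.sub_mem, smul_eq_mul, Ideal.mul_top]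
        obtain ⟨d, rfl⟩ := Nat.exists_eq_add_of_le hac
        have := Ideal.pow_le_pow_right (show a ≤ a + 1 by omega) (hm a d)
        simpa using (Submodule.neg_mem _ this))
    refine ⟨L, fun N => ?_⟩
    have := hL (N + 1)
    rw [SModEq.sub_mem, smul_eq_mul, Ideal.mul_top] at this
    simpa using Ideal.add_mem _ (Submodule.neg_mem _ this) (hv N)
  choose a ha using fun i => hcau (fun N => (seq N).1.1 (X i)) fun N => (hnear N).1 i
  choose c hc using fun i => hcau (fun N => PowerSeries.coeff i (seq N).1.2) fun N => by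
    simpa [map_sub] using (hnear N).2 i
  have ham : ∀ i, a i ∈ m := fun i => by
    have := Ideal.pow_le_self (I := m) one_ne_zero (ha i 0)
    simpa using Ideal.add_mem _ this (algHom_maximal hs (seq 0).1.1 i)
  obtain ⟨σ, hσ⟩ := exists_algHom (p := p) a ham
  set φ : PowerSeries S := PowerSeries.mk c
  have hmod : ∀ N i, PowerSeries.coeff i φ - PowerSeries.coeff i (seq N).1.2 ∈ m ^ (N + 1) :=
    fun N i => by rw [PowerSeries.coeff_mk]; exact hc i N
  have hmk : ∀ N, PowerSeries.map (Ideal.Quotient.mk (m ^ (N + 1))) φ =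
      PowerSeries.map (Ideal.Quotient.mk (m ^ (N + 1))) (seq N).1.2 := fun N => by
    ext i
    simpa [Ideal.Quotient.mk_eq_mk_iff_sub_mem] using hmod N i
  have hφ : φ.constantCoeff = 0 := by
    refine (IsHausdorff.eq_iff_smodEq (I := m)).2 fun N => ?_
    rw [SModEq.sub_mem, smul_eq_mul, Ideal.mul_top, sub_zero]
    refine Ideal.pow_le_pow_right (Nat.le_succ N) ?_
    have := hmod N 0
    rw [PowerSeries.coeff_zero_eq_constantCoeff_apply, PowerSeries.coeff_zero_eq_constantCoeff_apply,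
      (seq N).2.1, sub_zero] at this
    exact this
  refine ⟨σ, φ, isHom_iff.2 ⟨hφ, MvPowerSeries.ext fun e => ?_⟩, ?_⟩
  · rw [map_zero]
    refine (IsHausdorff.eq_iff_smodEq (I := m)).2 fun N => ?_
    rw [SModEq.sub_mem, smul_eq_mul, Ideal.mul_top, sub_zero]
    refine Ideal.pow_le_pow_right (Nat.le_succ N) (Ideal.Quotient.eq_zero_iff_mem.1 ?_)
    rw [← coeff_map, ← err_eq F G _ _ hφ, err, hmk, red_eq hs le_rfl
      (σ := (seq N).1.1) (fun i => by rw [hσ]; exact ha i N)]
    change coeff e (err F G _ _ _) = 0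
    rw [(seq N).2.2.2, map_zero]
  · ext i
    rw [← (seq 0).2.2.1, PowerSeries.coeff_map, PowerSeries.coeff_map, ← sub_eq_zero, ← map_sub,
      ← mem_maximal_S hs]
    have := hmod 0 i
    rwa [pow_one] at this

include hs in
theorem close (hF : IsHazewinkel p n F) [F.IsComm] (hn : 1 ≤ n) [IsNoetherianRing S]
    (hG : G.map (qS hs) = specialFibre p n F) (N D : ℕ) :
    ∃ M, ∀ (σ₁ σ₂ : E0 p n →ₐ[W p n] S) (φ₁ φ₂ : PowerSeries S),
      IsSol F G σ₁ φ₁ → IsSol F G σ₂ φ₂ →
      Small M (PowerSeries.map (qS hs) φ₁ - PowerSeries.X) →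
      Small M (PowerSeries.map (qS hs) φ₂ - PowerSeries.X) →
      (∀ i, σ₂ (X i) - σ₁ (X i) ∈ maximalIdeal S ^ (N + 1)) ∧
        ∀ i < D, PowerSeries.coeff i (φ₂ - φ₁) ∈ maximalIdeal S ^ (N + 1) := by
  classical
  induction N generalizing D with
  | zero =>
    refine ⟨D, fun σ₁ σ₂ φ₁ φ₂ _ _ h₁ h₂ => ⟨fun i => ?_, fun i hi => ?_⟩⟩
    · rw [pow_one]
      exact Ideal.sub_mem _ (algHom_maximal hs σ₂ i) (algHom_maximal hs σ₁ i)
    · rw [pow_one, mem_maximal_S hs, map_sub, map_sub, ← PowerSeries.coeff_map,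
        ← PowerSeries.coeff_map]
      have e₁ := small_powerSeries.1 h₁ i hi
      have e₂ := small_powerSeries.1 h₂ i hi
      rw [map_sub, sub_eq_zero] at e₁ e₂
      rw [e₁, e₂, sub_self]
  | succ N ih =>
    refine refine_ideals N (fun J => ∀ D, ∃ M, ∀ (σ₁ σ₂ : E0 p n →ₐ[W p n] S) (φ₁ φ₂ : PowerSeries S),
      IsSol F G σ₁ φ₁ → IsSol F G σ₂ φ₂ →
      Small M (PowerSeries.map (qS hs) φ₁ - PowerSeries.X) →
      Small M (PowerSeries.map (qS hs) φ₂ - PowerSeries.X) →
      (∀ i, σ₂ (X i) - σ₁ (X i) ∈ J) ∧ ∀ i < D, PowerSeries.coeff i (φ₂ - φ₁) ∈ J)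
      ih (fun J b hJN hJ hb hP D => ?_) D
    by_cases hbJ : b ∈ J
    · obtain ⟨M, hM⟩ := hP D
      refine ⟨M, fun σ₁ σ₂ φ₁ φ₂ a₁ a₂ a₃ a₄ => ?_⟩
      have := hM σ₁ σ₂ φ₁ φ₂ a₁ a₂ a₃ a₄
      rwa [sup_eq_left.2 ((Ideal.span_singleton_le_iff_mem J).2 hbJ)] at this
    have hle : maximalIdeal S ^ (N + 1) ≤ maximalIdeal S := Ideal.pow_le_self (by omega)
    obtain ⟨q, K, hq⟩ := exists_kill hs (hJ.trans hle) (hle hb)
      (fun x hx => hJN (by rw [pow_succ']; exact Ideal.mul_mem_mul hx hb)) hbJ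
    obtain ⟨M₁, hDM, hM₁⟩ := cocycle_bound hF hn (D + 2)
    obtain ⟨M₀, hM₀⟩ := hP M₁
    refine ⟨max M₀ M₁, fun σ₁ σ₂ φ₁ φ₂ h₁ h₂ hq₁ hq₂ => ?_⟩
    obtain ⟨hdX, hdφ⟩ := hM₀ σ₁ σ₂ φ₁ φ₂ h₁ h₂ (hq₁.mono (le_max_left _ _))
      (hq₂.mono (le_max_left _ _))
    set β := Ideal.Quotient.mk J b
    have hsplit : ∀ {y : S}, y ∈ J ⊔ Ideal.span {b} → ∃ c, Ideal.Quotient.mk J y = β * c := by
      intro y hy
      obtain ⟨j, hj, z, hz, rfl⟩ := Submodule.mem_sup.1 hy
      obtain ⟨c, rfl⟩ := Ideal.mem_span_singleton'.1 hz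
      refine ⟨Ideal.Quotient.mk J c, ?_⟩
      rw [map_add, Ideal.Quotient.eq_zero_iff_mem.2 hj, zero_add, map_mul, mul_comm]
    choose x hx using fun i => hsplit (hdX i)
    choose z hz using fun (i : {i // i < M₁}) => hsplit (hdφ i.1 i.2)
    obtain ⟨hφ₁, hsol₁⟩ := isHom_iff.1 h₁
    obtain ⟨hφ₂, hsol₂⟩ := isHom_iff.1 h₂
    set f₁ := PowerSeries.map (Ideal.Quotient.mk J) φ₁
    set f₂ := PowerSeries.map (Ideal.Quotient.mk J) φ₂
    set φ' : PowerSeries (S ⧸ J) :=
      PowerSeries.mk fun i => if i < M₁ then PowerSeries.coeff i f₁ else 0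
    set Ψ : PowerSeries (S ⧸ J) :=
      PowerSeries.mk fun i => if hi : i < M₁ ∧ i ≠ 0 then z ⟨i, hi.1⟩ else 0
    have hφ'0 : φ'.constantCoeff = 0 := by
      simp [φ', f₁, PowerSeries.coeff_zero_eq_constantCoeff_apply, hφ₁]
    have hΨ0 : Ψ.constantCoeff = 0 := by simp [Ψ]
    have hqq : ∀ (φ : PowerSeries S) i, q (PowerSeries.coeff i (PowerSeries.map (Ideal.Quotient.mk J) φ))
        = PowerSeries.coeff i (PowerSeries.map (qS hs) φ) := fun φ i => by
      simp [PowerSeries.coeff_map, hq]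
    have hφ'q : PowerSeries.map q φ' = PowerSeries.X := by
      ext i
      rw [PowerSeries.coeff_map, PowerSeries.coeff_mk]
      split_ifs with hi
      · rw [hqq]
        have := small_powerSeries.1 hq₁ i (lt_of_lt_of_le hi (le_max_right _ _))
        rwa [map_sub, sub_eq_zero] at this
      · rw [map_zero, PowerSeries.coeff_X, if_neg (by omega)]
    have hc₁ : Small M₁ (f₁ - φ') := small_powerSeries.2 fun i hi => by
      simp [φ', hi]
    have hc₂ : Small M₁ (f₂ - (φ' + PowerSeries.C β * Ψ)) := small_powerSeries.2 fun i hi => by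
      rw [map_sub, map_add, PowerSeries.coeff_C_mul, PowerSeries.coeff_mk, if_pos hi,
        PowerSeries.coeff_mk]
      by_cases hi0 : i = 0
      · subst hi0
        simp [f₁, f₂, PowerSeries.coeff_zero_eq_constantCoeff_apply, hφ₁, hφ₂]
      · rw [dif_pos ⟨hi, hi0⟩, ← hz ⟨i, hi⟩, sub_eq_zero]
        simp [f₁, f₂]
    have hzero : ∀ (σ : E0 p n →ₐ[W p n] S) {φ : PowerSeries S}, φ.constantCoeff = 0 →
        dfc (F.map σ.toRingHom) G φ = 0 → err F G J σ φ = 0 := fun σ φ hφ h => by
      rw [err_eq F G _ _ hφ, h, map_zero]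
    have hGq : (G.map (Ideal.Quotient.mk J)).map q = specialFibre p n F := by
      rw [← hG]; exact FormalGroup.ext (by ext e; simp [hq])
    obtain ⟨Z, hZ, hZq⟩ := change K (F := F) (s := red J σ₁) (s' := red J σ₂)
      (by ext f; simp [hq, qS_algHom hs]) (fun w => by simp) x
      (fun i => by rw [← hx i]; simp)
      (M := N + 2) (fun f hf => ⟨Ideal.Quotient.eq_zero_iff_mem.2 (hJN (algHom_small hs σ₁ hf)),
        Ideal.Quotient.eq_zero_iff_mem.2 (hJN (algHom_small hs σ₂ hf))⟩)
      hGq hφ'0 hφ'q hΨ0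
    have hf0 : ∀ {φ : PowerSeries S}, φ.constantCoeff = 0 →
        (PowerSeries.map (Ideal.Quotient.mk J) φ).constantCoeff = 0 := fun {φ} h => by
      rw [← PowerSeries.coeff_zero_eq_constantCoeff_apply, PowerSeries.coeff_map,
        PowerSeries.coeff_zero_eq_constantCoeff_apply, h, map_zero]
    have e₁ := small_dfc_congr (F.map (red J σ₁)) (G.map (Ideal.Quotient.mk J)) (hf0 hφ₁) hφ'0 hc₁
    have e₂ := small_dfc_congr (F.map (red J σ₂)) (G.map (Ideal.Quotient.mk J)) (hf0 hφ₂)
      (φ' := φ' + PowerSeries.C β * Ψ) (by simp [hφ'0, hΨ0]) hc₂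
    rw [hZ] at e₂
    have hsm : Small M₁ (C β * Z) := by
      have h := e₁.sub e₂
      have a₁ : dfc (F.map (red J σ₁)) (G.map (Ideal.Quotient.mk J)) f₁ = 0 := hzero σ₁ hφ₁ hsol₁
      have a₂ : dfc (F.map (red J σ₂)) (G.map (Ideal.Quotient.mk J)) f₂ = 0 := hzero σ₂ hφ₂ hsol₂
      simp only [f₁, f₂] at a₁ a₂
      simpa [a₁, a₂] using h
    rw [K.small_iff, hZq] at hsm
    obtain ⟨hc0, hψ0⟩ := hM₁ _ _ (by
      rw [← PowerSeries.coeff_zero_eq_constantCoeff_apply, PowerSeries.coeff_map,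
        PowerSeries.coeff_zero_eq_constantCoeff_apply, hΨ0, map_zero]) hsm
    refine ⟨fun i => ?_, fun i hi => ?_⟩
    · rw [← Ideal.Quotient.eq_zero_iff_mem, hx i]
      exact (K.iff _).2 (hc0 i)
    · rw [← Ideal.Quotient.eq_zero_iff_mem]
      by_cases hi0 : i = 0
      · subst hi0
        simp [PowerSeries.coeff_zero_eq_constantCoeff_apply, hφ₁, hφ₂]
      · have h' := hψ0 i (by omega)
        rw [PowerSeries.coeff_map, PowerSeries.coeff_mk, dif_pos ⟨(by omega : i < M₁), hi0⟩,
          ← K.iff, ← hz] at h'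
        exact h'

end Vale.Agent.P217.LT
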