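import Vale.Agent.P217.LT.Cocycle
import Vale.Agent.P217.LT.Universal.Calculus

/-!
# P217 Universal: one step of a deformation along a small extension
-/

noncomputable section

namespace Vale.Agent.P217.LT

open MvPowerSeries

variable {T : Type} [CommRing T] {σ τ : Type}

/-- The arguments `φ a, φ b`. -/
abbrev pr (φ : PowerSeries T) (a b : MvPowerSeries τ T) : Fin 2 → MvPowerSeries τ T :=
  ![PowerSeries.subst a φ, PowerSeries.subst b φ]

lemma const2 {a b : MvPowerSeries τ T} (ha : a.constantCoeff = 0) (hb : b.constantCoeff = 0) :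
    ∀ i, (![a, b] i).constantCoeff = 0 := fun i => by fin_cases i <;> simpa

lemma psubst_comp [Finite σ] {a : σ → MvPowerSeries τ T} (ha : ∀ i, (a i).constantCoeff = 0)
    {g : MvPowerSeries σ T} (hg : g.constantCoeff = 0) (φ : PowerSeries T) :
    subst a (PowerSeries.subst g φ) = PowerSeries.subst (subst a g) φ := by
  rw [PowerSeries.subst,
    subst_comp_subst_apply (PowerSeries.HasSubst.of_constantCoeff_zero hg).const (hsub ha)]
  rfl

lemma subst_two_comp [Finite σ] {a : σ → MvPowerSeries τ T} (ha : ∀ i, (a i).constantCoeff = 0)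
    {f g : MvPowerSeries σ T} (hf : f.constantCoeff = 0) (hg : g.constantCoeff = 0)
    (A : MvPowerSeries (Fin 2) T) :
    subst a (subst ![f, g] A) = subst ![subst a f, subst a g] A := by
  rw [subst_comp_subst_apply (hsub (const2 hf hg)) (hsub ha)]
  congr 1
  funext i
  fin_cases i <;> rfl

lemma map_subst_two {U : Type} [CommRing U] (h : T →+* U) {f g : MvPowerSeries τ T}
    (hf : f.constantCoeff = 0) (hg : g.constantCoeff = 0) (A : MvPowerSeries (Fin 2) T) :
    map h (subst ![f, g] A) = subst ![map h f, map h g] (map h A) := by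
  rw [map_subst (hsub (const2 hf hg))]
  congr 1
  funext i
  fin_cases i <;> rfl

lemma map_psubst {U : Type} [CommRing U] (h : T →+* U) {g : MvPowerSeries τ T}
    (hg : g.constantCoeff = 0) (φ : PowerSeries T) :
    map h (PowerSeries.subst g φ) = PowerSeries.subst (map h g) (PowerSeries.map h φ) := by
  rw [PowerSeries.subst, map_subst (PowerSeries.HasSubst.of_constantCoeff_zero hg).const]
  rfl

lemma map_pderiv {U : Type} [CommRing U] (h : T →+* U) (i : σ) (A : MvPowerSeries σ T) :
    map h (pderiv T i A) = pderiv U i (map h A) := by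
  ext e
  simp [coeff_pderiv]

lemma const_pr {φ : PowerSeries T} (hφ : φ.constantCoeff = 0) {a b : MvPowerSeries τ T}
    (ha : a.constantCoeff = 0) (hb : b.constantCoeff = 0) :
    ∀ i, (pr φ a b i).constantCoeff = 0 :=
  const2 (PowerSeries.constantCoeff_subst_eq_zero ha φ hφ)
    (PowerSeries.constantCoeff_subst_eq_zero hb φ hφ)

lemma const_two (H : FormalGroup T) {a b : MvPowerSeries τ T} (ha : a.constantCoeff = 0)
    (hb : b.constantCoeff = 0) : (subst ![a, b] H.toPowerSeries).constantCoeff = 0 :=
  constantCoeff_subst_eq_zero (hsub (const2 ha hb)) (const2 ha hb) H.zero_constantCoeff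

instance isComm_map {U : Type} [CommRing U] (H : FormalGroup T) [H.IsComm] (h : T →+* U) :
    (H.map h).IsComm where
  comm := by
    have e : H.toPowerSeries = H.toPowerSeries.subst ![MvPowerSeries.X 1, MvPowerSeries.X 0] :=
      FormalGroup.IsComm.comm
    change map h H.toPowerSeries = _
    conv_lhs => rw [e, map_subst_two h (by simp) (by simp), map_X, map_X]
    rfl

/-- The defect of `φ` as a homomorphism from `P` to `G`. -/
def dfc (P G : FormalGroup T) (φ : PowerSeries T) : MvPowerSeries (Fin 2) T :=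
  PowerSeries.subst P.toPowerSeries φ -
    subst (pr φ (MvPowerSeries.X 0) (MvPowerSeries.X 1)) G.toPowerSeries

lemma isHom_iff {P G : FormalGroup T} {φ : PowerSeries T} :
    IsHom P G φ ↔ φ.constantCoeff = 0 ∧ dfc P G φ = 0 := by
  rw [IsHom, dfc, sub_eq_zero]

lemma map_dfc {U : Type} [CommRing U] (h : T →+* U) (P G : FormalGroup T) {φ : PowerSeries T}
    (hφ : φ.constantCoeff = 0) :
    map h (dfc P G φ) = dfc (P.map h) (G.map h) (PowerSeries.map h φ) := by
  rw [dfc, dfc, map_sub, map_psubst h P.zero_constantCoeff, pr, pr,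
    map_subst_two h (PowerSeries.constantCoeff_subst_eq_zero (by simp) φ hφ)
      (PowerSeries.constantCoeff_subst_eq_zero (by simp) φ hφ),
    map_psubst h (by simp), map_psubst h (by simp), map_X, map_X]
  rfl

/-- Multiplication by `β` sees only the reduction along `q`. -/
structure Kill {K : Type} [CommRing K] (β : T) (q : T →+* K) : Prop where
  iff : ∀ x, β * x = 0 ↔ q x = 0
  zero : q β = 0
  surj : Function.Surjective q

namespace Kill

variable {K : Type} [CommRing K] {β : T} {q : T →+* K}

lemma sq (h : Kill β q) : β * β = 0 := (h.iff β).2 h.zero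

lemma small_iff (h : Kill β q) {M : ℕ} {A : MvPowerSeries τ T} :
    Small M (C β * A) ↔ Small M (map q A) := by
  refine forall₂_congr fun e _ => ?_
  rw [coeff_C_mul, coeff_map, h.iff]

lemma eq_iff (h : Kill β q) {A B : MvPowerSeries τ T} :
    C β * A = C β * B ↔ map q A = map q B := by
  refine ⟨fun he => MvPowerSeries.ext fun e => ?_, fun he => MvPowerSeries.ext fun e => ?_⟩
  · have := congrArg (coeff e) he
    rw [coeff_C_mul, coeff_C_mul, ← sub_eq_zero, ← mul_sub, h.iff, map_sub, sub_eq_zero] at this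
    simpa using this
  · have := congrArg (coeff e) he
    rw [coeff_map, coeff_map, ← sub_eq_zero, ← map_sub, ← h.iff, mul_sub, sub_eq_zero] at this
    simpa using this

end Kill

/-- The first order term of the defect. -/
def lin (P G : FormalGroup T) (φ Ψ : PowerSeries T) (R : MvPowerSeries (Fin 2) T) :
    MvPowerSeries (Fin 2) T :=
  PowerSeries.subst P.toPowerSeries Ψ +
      PowerSeries.subst P.toPowerSeries (pderiv T () φ) * R -
    ((pderiv T 0 G.toPowerSeries).subst (pr φ (MvPowerSeries.X 0) (MvPowerSeries.X 1)) *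
        PowerSeries.subst (MvPowerSeries.X 0) Ψ +
      (pderiv T 1 G.toPowerSeries).subst (pr φ (MvPowerSeries.X 0) (MvPowerSeries.X 1)) *
        PowerSeries.subst (MvPowerSeries.X 1) Ψ)

variable {β : T}

theorem dfc_change (hβ : β * β = 0) {P P' G : FormalGroup T} {φ Ψ : PowerSeries T}
    (hφ : φ.constantCoeff = 0) (hΨ : Ψ.constantCoeff = 0) {R : MvPowerSeries (Fin 2) T}
    (hR : R.constantCoeff = 0) (hP : P'.toPowerSeries = P.toPowerSeries + C β * R) :
    dfc P' G (φ + PowerSeries.C β * Ψ) = dfc P G φ + C β * lin P G φ Ψ R := by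
  have hCC : ∀ A B : MvPowerSeries (Fin 2) T, C β * A * (C β * B) = 0 := fun A B => by
    rw [mul_mul_mul_comm, ← map_mul, hβ, map_zero, zero_mul]
  have hsplit : ∀ {g : MvPowerSeries (Fin 2) T}, g.constantCoeff = 0 →
      PowerSeries.subst g (φ + PowerSeries.C β * Ψ) =
        PowerSeries.subst g φ + C β * PowerSeries.subst g Ψ := fun {g} hg => by
    have hs := PowerSeries.HasSubst.of_constantCoeff_zero hg
    rw [PowerSeries.subst_add hs, PowerSeries.subst_mul hs, PowerSeries.subst_C]
  have h0 : ∀ i : Fin 2, (MvPowerSeries.X i : MvPowerSeries (Fin 2) T).constantCoeff = 0 := by simp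
  have hd : (C β * R).constantCoeff = 0 := by simp [hR]
  unfold dfc lin
  have ep : pr (φ + PowerSeries.C β * Ψ) (MvPowerSeries.X (R := T) (0 : Fin 2)) (MvPowerSeries.X 1) =
      fun i => pr φ (MvPowerSeries.X 0) (MvPowerSeries.X 1) i +
        ![C β * PowerSeries.subst (MvPowerSeries.X 0) Ψ,
          C β * PowerSeries.subst (MvPowerSeries.X 1) Ψ] i := by
    funext i
    fin_cases i <;> simp [hsplit (h0 _)]
  rw [ep, subst_add_first G.toPowerSeries (const_pr hφ (h0 0) (h0 1))
    (const2 (by simp [PowerSeries.constantCoeff_subst_eq_zero (h0 0) Ψ hΨ])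
      (by simp [PowerSeries.constantCoeff_subst_eq_zero (h0 1) Ψ hΨ]))
    (fun i j => by fin_cases i <;> fin_cases j <;> exact hCC _ _),
    Fin.sum_univ_two, hP, hsplit (by simp [P.zero_constantCoeff, hd]),
    psubst_add_first φ P.zero_constantCoeff hd (hCC _ _),
    psubst_add_first Ψ P.zero_constantCoeff hd (hCC _ _)]
  simp only [Matrix.cons_val_zero, Matrix.cons_val_one]
  have hz : C β * (C β : MvPowerSeries (Fin 2) T) = 0 := by rw [← map_mul, hβ, map_zero]
  linear_combination (PowerSeries.subst P.toPowerSeries (pderiv T () Ψ) * R) * hz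

variable {K : Type} [CommRing K] {q : T →+* K} {Γ : FormalGroup K}

theorem map_lin {P G : FormalGroup T} {φ : PowerSeries T} (hPΓ : P.map q = Γ) (hGΓ : G.map q = Γ)
    (hφ : φ.constantCoeff = 0) (hφq : PowerSeries.map q φ = PowerSeries.X) (Ψ : PowerSeries T)
    (R : MvPowerSeries (Fin 2) T) :
    map q (lin P G φ Ψ R) = map q R + coboundary Γ (PowerSeries.map q Ψ) := by
  have h0 : ∀ i : Fin 2, (MvPowerSeries.X i : MvPowerSeries (Fin 2) T).constantCoeff = 0 := by simp
  have hP : map q P.toPowerSeries = Γ.toPowerSeries := by rw [← hPΓ]; rfl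
  have hG : map q G.toPowerSeries = Γ.toPowerSeries := by rw [← hGΓ]; rfl
  have hg : ∀ i, PowerSeries.subst (map q (MvPowerSeries.X i : MvPowerSeries (Fin 2) T))
      (PowerSeries.X : PowerSeries K) = MvPowerSeries.X i := fun i => by
    rw [map_X, PowerSeries.subst_X (PowerSeries.HasSubst.of_constantCoeff_zero (by simp))]
  have hargs : (![MvPowerSeries.X 0, MvPowerSeries.X 1] : Fin 2 → MvPowerSeries (Fin 2) K) =
      MvPowerSeries.X := by funext i; fin_cases i <;> rfl
  have hdX : PowerSeries.map q (pderiv T () φ) = 1 := by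
    change map q (pderiv T () φ) = 1
    rw [map_pderiv]
    change pderiv K () (PowerSeries.map q φ) = 1
    rw [hφq]
    exact pderiv_X_self
  have hpd : ∀ i, map q ((pderiv T i G.toPowerSeries).subst
      (pr φ (MvPowerSeries.X 0) (MvPowerSeries.X 1))) = pderiv K i Γ.toPowerSeries := fun i => by
    rw [pr, map_subst_two q (PowerSeries.constantCoeff_subst_eq_zero (h0 0) φ hφ)
      (PowerSeries.constantCoeff_subst_eq_zero (h0 1) φ hφ), map_psubst q (h0 0),
      map_psubst q (h0 1), hφq, hg, hg, map_pderiv, hG, hargs, subst_self]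
    rfl
  have h1 : PowerSeries.subst Γ.toPowerSeries (1 : PowerSeries K) = 1 := by
    rw [← PowerSeries.coe_substAlgHom
      (PowerSeries.HasSubst.of_constantCoeff_zero Γ.zero_constantCoeff), map_one]
  rw [lin, coboundary, map_sub, map_add, map_add, map_mul, map_mul, map_mul, hpd, hpd,
    map_psubst q P.zero_constantCoeff, map_psubst q P.zero_constantCoeff, map_psubst q (h0 0),
    map_psubst q (h0 1), hdX, hP, h1, map_X, map_X]
  ring

theorem isSymmCocycle_of_dfc {β : T} (h : Kill β q) {P G : FormalGroup T} [P.IsComm] [G.IsComm]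
    {φ : PowerSeries T} (hPΓ : P.map q = Γ) (hGΓ : G.map q = Γ) (hφ : φ.constantCoeff = 0)
    (hφq : PowerSeries.map q φ = PowerSeries.X) {E : MvPowerSeries (Fin 2) T}
    (hE0 : E.constantCoeff = 0) (hD : dfc P G φ = C β * E) :
    IsSymmCocycle Γ (map q E) := by
  have hs : ∀ {τ : Type} [Finite τ] {a b : MvPowerSeries τ T}, a.constantCoeff = 0 →
      b.constantCoeff = 0 → PowerSeries.subst (subst ![a, b] P.toPowerSeries) φ =
        subst (pr φ a b) G.toPowerSeries + C β * subst ![a, b] E := by
    intro τ _ a b ha hb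
    have hh := congrArg (subst ![a, b]) hD
    rw [subst_mul (hsub (const2 ha hb)), subst_C, dfc, subst_sub (hsub (const2 ha hb)),
      psubst_comp (const2 ha hb) P.zero_constantCoeff, pr,
      subst_two_comp (const2 ha hb) (PowerSeries.constantCoeff_subst_eq_zero (by simp) φ hφ)
        (PowerSeries.constantCoeff_subst_eq_zero (by simp) φ hφ),
      psubst_comp (const2 ha hb) (by simp), psubst_comp (const2 ha hb) (by simp),
      subst_X (hsub (const2 ha hb)), subst_X (hsub (const2 ha hb)), sub_eq_iff_eq_add'] at hh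
    exact hh
  have hX : ∀ {m : ℕ} (i : Fin m),
      (MvPowerSeries.X i : MvPowerSeries (Fin m) T).constantCoeff = 0 := fun i => by simp
  have hpc : ∀ {τ : Type} {a : MvPowerSeries τ T}, a.constantCoeff = 0 →
      (PowerSeries.subst a φ).constantCoeff = 0 := fun ha =>
    PowerSeries.constantCoeff_subst_eq_zero ha φ hφ
  refine ⟨?_, ?_, ?_⟩
  · have e := hs (hX (m := 2) 1) (hX 0)
    rw [← P.comm' (PowerSeries.HasSubst.of_constantCoeff_zero (hX (m := 2) 0))
      (PowerSeries.HasSubst.of_constantCoeff_zero (hX 1)), hs (hX 0) (hX 1)] at e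
    rw [← G.comm' (PowerSeries.HasSubst.of_constantCoeff_zero (hpc (hX (m := 2) 0)))
      (PowerSeries.HasSubst.of_constantCoeff_zero (hpc (hX 1))), add_right_inj, h.eq_iff,
      map_subst_two q (hX 0) (hX 1), map_subst_two q (hX 1) (hX 0), map_X, map_X] at e
    rw [show (![MvPowerSeries.X 0, MvPowerSeries.X 1] : Fin 2 → MvPowerSeries (Fin 2) K) =
      MvPowerSeries.X by funext i; fin_cases i <;> rfl, subst_self] at e
    exact e.symm
  · have e := hs (hX (m := 2) 0) (map_zero (constantCoeff (σ := Fin 2) (R := T)))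
    rw [P.add_zero (PowerSeries.HasSubst.of_constantCoeff_zero (hX 0)), pr,
      PowerSeries.subst_zero_of_constantCoeff_zero hφ,
      G.add_zero (PowerSeries.HasSubst.of_constantCoeff_zero (hpc (hX 0))), left_eq_add] at e
    have e' := h.eq_iff.1 (e.trans (mul_zero (C β : MvPowerSeries (Fin 2) T)).symm)
    rw [map_subst_two q (hX 0) (map_zero _), map_X, map_zero] at e'
    exact e'
  · have h01 := const_two P (hX (m := 3) 0) (hX 1)
    have h12 := const_two P (hX (m := 3) 1) (hX 2)
    have hgs := fun {τ : Type} {a b : MvPowerSeries τ T} (ha : a.constantCoeff = 0)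
      (hb : b.constantCoeff = 0) => const_two G (hpc ha) (hpc hb)
    have hEc : ∀ {τ : Type} {a b : MvPowerSeries τ T}, a.constantCoeff = 0 →
        b.constantCoeff = 0 → (C β * subst ![a, b] E).constantCoeff = 0 := fun ha hb => by
      rw [map_mul, constantCoeff_subst_eq_zero (hsub (const2 ha hb)) (const2 ha hb) hE0, mul_zero]
    have hsq : ∀ A B : MvPowerSeries (Fin 3) T, C β * A * (C β * B) = 0 := fun A B => by
      rw [mul_mul_mul_comm, ← map_mul, h.sq, map_zero, zero_mul]
    have e1 := hs h01 (hX (m := 3) 2)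
    have e2 := hs (hX (m := 3) 0) h12
    rw [pr, hs (hX 0) (hX 1), pr] at e1
    rw [pr, hs (hX 1) (hX 2), pr] at e2
    rw [show ∀ A D C' : MvPowerSeries (Fin 3) T, (![A + D, C'] : Fin 2 → _) =
      (fun i => ![A, C'] i + ![D, 0] i) from fun A D C' => by funext i; fin_cases i <;> simp,
      subst_add_first G.toPowerSeries (const2 (hgs (hX 0) (hX 1)) (hpc (hX 2)))
        (const2 (hEc (hX 0) (hX 1)) (map_zero _))
        (fun i j => by fin_cases i <;> fin_cases j <;> simp [hsq]), Fin.sum_univ_two] at e1
    rw [show ∀ A D C' : MvPowerSeries (Fin 3) T, (![C', A + D] : Fin 2 → _) =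
      (fun i => ![C', A] i + ![0, D] i) from fun A D C' => by funext i; fin_cases i <;> simp,
      subst_add_first G.toPowerSeries (const2 (hpc (hX 0)) (hgs (hX 1) (hX 2)))
        (const2 (map_zero _) (hEc (hX 1) (hX 2)))
        (fun i j => by fin_cases i <;> fin_cases j <;> simp [hsq]), Fin.sum_univ_two] at e2
    rw [P.assoc' (PowerSeries.HasSubst.of_constantCoeff_zero (hX 0))
      (PowerSeries.HasSubst.of_constantCoeff_zero (hX 1))
      (PowerSeries.HasSubst.of_constantCoeff_zero (hX 2)), e2] at e1
    rw [G.assoc' (PowerSeries.HasSubst.of_constantCoeff_zero (hpc (hX 0)))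
      (PowerSeries.HasSubst.of_constantCoeff_zero (hpc (hX 1)))
      (PowerSeries.HasSubst.of_constantCoeff_zero (hpc (hX 2)))] at e1
    simp only [Matrix.cons_val_zero, Matrix.cons_val_one, mul_zero, add_zero, zero_add,
      mul_left_comm _ (C β : MvPowerSeries (Fin 3) T), add_assoc, ← mul_add, add_right_inj,
      h.eq_iff] at e1
    have hq : ∀ i, PowerSeries.subst (MvPowerSeries.X i : MvPowerSeries (Fin 3) K)
        (PowerSeries.X : PowerSeries K) = MvPowerSeries.X i := fun i =>
      PowerSeries.subst_X (PowerSeries.HasSubst.of_constantCoeff_zero (by simp))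
    have hG : map q G.toPowerSeries = Γ.toPowerSeries := by rw [← hGΓ]; rfl
    have hP : map q P.toPowerSeries = Γ.toPowerSeries := by rw [← hPΓ]; rfl
    simp only [map_add, map_mul, map_subst_two q (hX (m := 3) 0) (hX 1),
      map_subst_two q (hX (m := 3) 1) (hX 2), map_subst_two q h01 (hX (m := 3) 2),
      map_subst_two q (hX (m := 3) 0) h12, map_subst_two q (hgs (hX (m := 3) 0) (hX 1)) (hpc (hX 2)),
      map_subst_two q (hpc (hX (m := 3) 0)) (hgs (hX 1) (hX 2)),
      map_subst_two q (hpc (hX (m := 3) 0)) (hpc (hX 1)),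
      map_subst_two q (hpc (hX (m := 3) 1)) (hpc (hX 2)),
      map_psubst q (hX (m := 3) 0), map_psubst q (hX (m := 3) 1), map_psubst q (hX (m := 3) 2),
      hφq, map_X, hq, map_pderiv, hG, hP] at e1
    linear_combination -e1

end Vale.Agent.P217.LT
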